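import Vale.Agent.Lib.P052.Data

namespace Vale.Agent.Lib.P052.Check

open Vale.Agent.Lib.P052.Data

/-- entry `y` of a packed row -/
def bit (p y : Nat) : Nat := Nat.mod (Nat.shiftRight p (Nat.mul 8 y)) 2

/-- the row rebuilt from its entries `0 … k-1` -/
def rebuild (p : Nat) : Nat → Nat
  | 0 => 0
  | k+1 => Nat.add (Nat.mul (bit p k) (Nat.pow 256 k)) (rebuild p k)

/-- sum of the entries `0 … k-1` -/
def rowSum (p : Nat) : Nat → Nat
  | 0 => 0
  | k+1 => Nat.add (bit p k) (rowSum p k)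

/-- all table lines satisfy a test -/
def allT (f : Nat → Nat → Bool) : List (Nat × Nat) → Bool
  | [] => true
  | u :: t => and (f u.1 u.2) (allT f t)

/-- the sum over the table of `row z * entry` -/
def sumRow (p : Nat) : List (Nat × Nat) → Nat
  | [] => 0
  | u :: t => Nat.add (Nat.mul (bit p u.1) u.2) (sumRow p t)

/-- digits are 0/1, degree is 100, no loops -/
def check1 : Bool :=
  allT (fun x p => and (Nat.beq p (rebuild p 416)) (and (Nat.beq (rowSum p 416) 100) (Nat.beq (bit p x) 0))) tbl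

/-- symmetry -/
def check2 : Bool :=
  allT (fun x p => allT (fun y q => Nat.beq (bit p y) (bit q x)) tbl) tbl

/-- strong regularity -/
def check3 : Bool :=
  allT (fun x p => Nat.beq (Nat.add (Nat.add (sumRow p tbl) (Nat.mul 20 p)) (Nat.mul 20 (Nat.pow 256 x)))
    (Nat.add (Nat.add (Nat.mul 100 (Nat.pow 256 x)) (Nat.mul 36 p)) (Nat.mul 20 (Nat.div (Nat.sub (Nat.pow 256 416) 1) 255)))) tbl

/-- eigenfunctions -/
def check4 : Bool :=
  and (Nat.beq (Nat.add (sumRow pkP1 tbl) (Nat.mul 20 pkP2)) (Nat.add (sumRow pkP2 tbl) (Nat.mul 20 pkP1)))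
      (Nat.beq (Nat.add (sumRow pkP1 tbl) (Nat.mul 20 pkP3)) (Nat.add (sumRow pkP3 tbl) (Nat.mul 20 pkP1)))

/-- cliques: no `k`-clique inside a list of table lines -/
def tailsAll (r : List (Nat × Nat) → Bool) : List (Nat × Nat) → Bool
  | [] => true
  | u :: t => and (r (t.filter (fun w => Nat.beq (bit u.2 w.1) 1))) (tailsAll r t)

def noK : Nat → List (Nat × Nat) → Bool
  | 0 => fun _ => false
  | k+1 => tailsAll (noK k)

/-- row lookup -/
def pk (x : Nat) : Nat := (tbl.getD x (0, 0)).2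

/-- the neighbours of vertex 0 contain no 5-clique -/
def check5 : Bool := noK 5 (tbl.filter (fun w => Nat.beq (bit (pk 0) w.1) 1))

/-- the table lists the rows in order -/
def indexOK : Nat → List (Nat × Nat) → Bool
  | _, [] => true
  | i, u :: t => and (Nat.beq u.1 i) (indexOK (Nat.succ i) t)

/-- scalar product of two packed rows -/
def dotS (p q : Nat) : Nat → Nat
  | 0 => 0
  | k+1 => Nat.add (Nat.mul (bit p k) (bit q k)) (dotS p q k)

/-- the three parts: digits, sizes and disjointness -/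
def check6 : Bool :=
  and (Nat.beq pkP1 (rebuild pkP1 416)) <| and (Nat.beq pkP2 (rebuild pkP2 416)) <|
  and (Nat.beq pkP3 (rebuild pkP3 416)) <|
  and (Nat.beq (dotS pkP1 pkP1 416) 32) <| and (Nat.beq (dotS pkP2 pkP2 416) 32) <|
  and (Nat.beq (dotS pkP3 pkP3 416) 32) <| and (Nat.beq (dotS pkP1 pkP2 416) 0) <|
  and (Nat.beq (dotS pkP1 pkP3 416) 0) <| and (Nat.beq (dotS pkP2 pkP3 416) 0) <|
  and (Nat.beq (rowSum pkP1 416) 32) <| and (Nat.beq (rowSum pkP2 416) 32) <|
  and (Nat.beq (rowSum pkP3 416) 32) <|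
  and (Nat.beq (bit pkP1 zV) 1) <| and (Nat.beq (bit pkP2 zV) 0) <| Nat.beq (bit pkP3 zV) 0

/-- the vertex set -/
def inU (x : Nat) : Bool :=
  or (Nat.beq x zV) (and (Nat.beq (bit pkP1 x) 0) (and (Nat.beq (bit pkP2 x) 0) (Nat.beq (bit pkP3 x) 0)))

/-- a list map `π` preserves adjacency, row by row -/
def homRow (π : List Nat) (p q : Nat) : Nat → List Nat → Bool
  | _, [] => true
  | y, w :: t => and (or (Nat.beq (bit p y) 0) (Nat.beq (bit q w) 1)) (homRow π p q (Nat.succ y) t)

/-- the map `π` preserves adjacency and maps into the vertex set -/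
def homOK (π : List Nat) : Bool :=
  and (π.all (fun w => Nat.blt w 416)) <|
  and (Nat.beq π.length 416) <|
  allT (fun x p => homRow π p (pk (π.getD x 0)) 0 π) tbl

def gen (i : Nat) : List Nat := match i with
  | 0 => gen0
  | _ => gen1

/-- one step of the Schreier list -/
def schStep (m : Nat) (e : Nat × Nat × Nat) : Nat :=
  match Nat.testBit m e.2.2, Nat.beq ((gen e.2.1).getD e.1 0) e.2.2 with
  | true, true => Nat.lor m (Nat.pow 2 e.1)
  | _, _ => m

end Vale.Agent.Lib.P052.Check
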