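import Vale.Agent.Lib.P052.Geom

namespace Vale.Agent.Lib.P052.Geom

open Finset Module

variable (D : Data)

/-- Isometric identification of the subspace with `ℝ⁶³`. -/
noncomputable def Data.iso : D.W ≃ₗᵢ[ℝ] EuclideanSpace ℝ (Fin 63) :=
  ((stdOrthonormalBasis ℝ D.W).reindex (finCongr D.finrank_W)).repr

/-- Placement in `ℝ⁶³`. -/
noncomputable def Data.pos (x : D.U) : EuclideanSpace ℝ (Fin 63) :=
  D.iso ⟨D.pt x.1, D.pt_mem x.2⟩

lemma Data.dist_pos (x y : D.U) : dist (D.pos x) (D.pos y) = ‖D.pt x.1 - D.pt y.1‖ := by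
  unfold Data.pos
  rw [D.iso.dist_map, Subtype.dist_eq, dist_eq_norm]

lemma sqrt_of_sq {r s : ℝ} (hr : 0 ≤ r) (h : r ^ 2 = s) : r = Real.sqrt s := by
  rw [← h, Real.sqrt_sq hr]

/-- The theorem: the point set needs more than 64 pieces. -/
theorem Data.borsuk (hU : D.U.card = 321)
    (hcl : ∀ C ⊆ D.U, (∀ x ∈ C, ∀ y ∈ C, x ≠ y → D.a x y = 1) → C.card ≤ 5) :
    ∃ Y : Set (EuclideanSpace ℝ (Fin 63)), Y.Finite ∧ 0 < Metric.diam Y ∧
      ¬ ∃ B : Fin 64 → Set (EuclideanSpace ℝ (Fin 63)),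
        (∀ i, B i ⊆ Y) ∧ (⋃ i, B i) = Y ∧ ∀ i, Metric.diam (B i) < Metric.diam Y := by
  set Y : Set (EuclideanSpace ℝ (Fin 63)) := Set.range D.pos with hY
  have hfin : Y.Finite := Set.finite_range _
  set Δ : ℝ := Real.sqrt 3072 with hΔ
  have hΔpos : 0 < Δ := Real.sqrt_pos.mpr (by norm_num)
  -- all distances are at most Δ
  have hle : ∀ x y : D.U, dist (D.pos x) (D.pos y) ≤ Δ := by
    intro x y
    by_cases hxy : x.1 = y.1
    · have : x = y := Subtype.ext hxy
      rw [this, dist_self]; exact hΔpos.le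
    · rw [D.dist_pos]
      have h := (D.pt_dist x.2 y.2 hxy).2
      exact Real.le_sqrt_of_sq_le h
  have hfar : ∀ x y : D.U, x.1 ≠ y.1 → D.a x.1 y.1 = 0 → dist (D.pos x) (D.pos y) = Δ := by
    intro x y hxy ha
    rw [D.dist_pos]
    exact sqrt_of_sq (norm_nonneg _) ((D.pt_dist x.2 y.2 hxy).1 ha)
  -- a non-adjacent pair exists
  have hex : ∃ x y : D.U, x.1 ≠ y.1 ∧ D.a x.1 y.1 = 0 := by
    by_contra hne
    push Not at hne
    have := hcl D.U (Finset.Subset.refl _) (by
      intro x hx y hy hxy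
      have := hne ⟨x, hx⟩ ⟨y, hy⟩ hxy
      rcases D.a01 x y with h | h
      · exact absurd h this
      · exact h)
    omega
  have hdiamle : Metric.diam Y ≤ Δ := by
    apply Metric.diam_le_of_forall_dist_le hΔpos.le
    rintro _ ⟨x, rfl⟩ _ ⟨y, rfl⟩
    exact hle x y
  have hbdd : Bornology.IsBounded Y := hfin.isBounded
  have hdiamge : Δ ≤ Metric.diam Y := by
    obtain ⟨x, y, hxy, ha⟩ := hex
    rw [← hfar x y hxy ha]
    exact Metric.dist_le_diam_of_mem hbdd ⟨x, rfl⟩ ⟨y, rfl⟩
  have hdiam : Metric.diam Y = Δ := le_antisymm hdiamle hdiamge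
  refine ⟨Y, hfin, by rw [hdiam]; exact hΔpos, ?_⟩
  rintro ⟨B, hBY, hBU, hB⟩
  rw [hdiam] at hB
  -- choose a piece for each vertex
  have hch : ∀ x : D.U, ∃ i, D.pos x ∈ B i := by
    intro x
    have : D.pos x ∈ ⋃ i, B i := by rw [hBU]; exact ⟨x, rfl⟩
    simpa using this
  choose f hf using hch
  -- fibres are cliques
  have hfib : ∀ i : Fin 64, ((D.U.attach).filter (fun x => f x = i)).card ≤ 5 := by
    intro i
    set C := (D.U.attach).filter (fun x => f x = i) with hC
    have hcard : (C.map (Function.Embedding.subtype _)).card = C.card := Finset.card_map _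
    rw [← hcard]
    apply hcl
    · intro x hx
      simp only [Finset.mem_map, Function.Embedding.coe_subtype] at hx
      obtain ⟨w, _, rfl⟩ := hx
      exact w.2
    · intro x hx y hy hxy
      simp only [Finset.mem_map, Function.Embedding.coe_subtype] at hx hy
      obtain ⟨w, hw, rfl⟩ := hx
      obtain ⟨v, hv, rfl⟩ := hy
      rcases D.a01 w.1 v.1 with h | h
      · exfalso
        have hw' : f w = i := (Finset.mem_filter.mp hw).2
        have hv' : f v = i := (Finset.mem_filter.mp hv).2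
        have h1 : D.pos w ∈ B i := hw' ▸ hf w
        have h2 : D.pos v ∈ B i := hv' ▸ hf v
        have hbd : Bornology.IsBounded (B i) := hbdd.subset (hBY i)
        have h3 := Metric.dist_le_diam_of_mem hbd h1 h2
        rw [hfar w v hxy h] at h3
        exact absurd (hB i) (not_lt.mpr h3)
      · exact h
  -- counting
  have hsum : (D.U.attach).card = ∑ i : Fin 64, ((D.U.attach).filter (fun x => f x = i)).card :=
    Finset.card_eq_sum_card_fiberwise (fun x _ => Finset.mem_coe.mpr (Finset.mem_univ (f x)))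
  have hle2 : ∑ i : Fin 64, ((D.U.attach).filter (fun x => f x = i)).card ≤ ∑ _i : Fin 64, 5 :=
    Finset.sum_le_sum (fun i _ => hfib i)
  rw [← hsum, Finset.card_attach, hU] at hle2
  simp at hle2

end Vale.Agent.Lib.P052.Geom
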