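import Mathlib

/-!
Abstract geometric core: a graph on `n = 416` vertices with the parameters of a strongly
regular graph (k = 100, lambda = 36, mu = 20), two eigenfunctions `g₁ g₂` for the
eigenvalue 20, a vertex `z` and a vertex set `U` on which the eigenfunctions vanish except
at `z`.  Then `U` can be placed in a 63-dimensional Euclidean space so that non-adjacent
pairs are exactly at the largest distance.
-/

namespace Vale.Agent.Lib.P052.Geom

open Finset Module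

abbrev V := Fin 416
abbrev E := EuclideanSpace ℝ V

/-- The hypotheses on the graph and on the two eigenfunctions. -/
structure Data where
  a : V → V → ℝ
  a01 : ∀ x y, a x y = 0 ∨ a x y = 1
  asymm : ∀ x y, a x y = a y x
  adiag : ∀ x, a x x = 0
  asq : ∀ x y, ∑ k, a x k * a k y = (if x = y then 80 else 0) + 16 * a x y + 20
  g₁ : V → ℝ
  g₂ : V → ℝ
  g₁eig : ∀ x, ∑ y, a x y * g₁ y = 20 * g₁ x
  g₂eig : ∀ x, ∑ y, a x y * g₂ y = 20 * g₂ x
  g₁sum : ∑ y, g₁ y = 0
  g₂sum : ∑ y, g₂ y = 0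
  g₁sq : ∑ y, g₁ y * g₁ y = 64
  g₂sq : ∑ y, g₂ y * g₂ y = 64
  g₁₂ : ∑ y, g₁ y * g₂ y = 32
  z : V
  g₁z : g₁ z = 1
  g₂z : g₂ z = 1
  U : Finset V
  Uz : z ∈ U
  Uvanish : ∀ x ∈ U, x ≠ z → g₁ x = 0 ∧ g₂ x = 0

variable (D : Data)

/-- row sums -/
lemma Data.rowsum (x : V) : ∑ k, D.a x k = 100 := by
  have h := D.asq x x
  simp only [if_true, D.adiag x] at h
  have h2 : ∀ k, D.a x k * D.a k x = D.a x k := by
    intro k
    rw [D.asymm k x]
    rcases D.a01 x k with h0 | h0 <;> simp [h0]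
  simp only [h2] at h
  rw [h]; norm_num

/-- The Gram-type matrix `M = 16 I + 4 A - J`. -/
noncomputable def Data.M (x y : V) : ℝ := (if x = y then 16 else 0) + 4 * D.a x y - 1

lemma Data.Msymm (x y : V) : D.M x y = D.M y x := by
  unfold Data.M
  rw [D.asymm x y]
  by_cases h : x = y
  · simp [h]
  · simp [h, Ne.symm h]

lemma Data.Mdiag (x : V) : D.M x x = 15 := by
  unfold Data.M
  simp [D.adiag x]; norm_num

/-- `M² = 96 M`. -/
lemma Data.Msq (x y : V) : ∑ k, D.M x k * D.M k y = 96 * D.M x y := by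
  unfold Data.M
  have e : ∀ k, ((if x = k then (16:ℝ) else 0) + 4 * D.a x k - 1) *
      ((if k = y then (16:ℝ) else 0) + 4 * D.a k y - 1) =
      (if x = k then (16:ℝ) * ((if k = y then (16:ℝ) else 0) + 4 * D.a k y - 1) else 0)
      + 16 * (D.a x k * D.a k y) + (if k = y then (16:ℝ) * (4 * D.a x k) else 0)
      - (if k = y then (16:ℝ) else 0) - 4 * D.a x k - 4 * D.a k y + 1 := by
    intro k
    split_ifs <;> ring
  simp only [e]
  rw [Finset.sum_add_distrib, Finset.sum_sub_distrib, Finset.sum_sub_distrib,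
    Finset.sum_sub_distrib, Finset.sum_add_distrib, Finset.sum_add_distrib]
  simp only [Finset.sum_ite_eq, Finset.sum_ite_eq', Finset.mem_univ, if_true, ← Finset.mul_sum,
    D.asq x y, D.rowsum x, Finset.sum_const, Finset.card_univ, Fintype.card_fin, nsmul_eq_mul]
  have h3 : ∑ k, D.a k y = 100 := by
    rw [← D.rowsum y]
    exact Finset.sum_congr rfl (fun k _ => D.asymm k y)
  rw [h3]
  by_cases hxy : x = y
  · subst hxy
    simp [D.adiag x]; ring
  · simp [hxy]; ring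

/-- The column vectors. -/
noncomputable def Data.p (x : V) : E := WithLp.toLp 2 (fun y => D.M x y)

noncomputable def Data.gv₁ : E := WithLp.toLp 2 D.g₁
noncomputable def Data.gv₂ : E := WithLp.toLp 2 D.g₂

lemma inner_eq_sum (u v : E) : inner ℝ u v = ∑ k, u k * v k := by
  simp [PiLp.inner_apply, mul_comm]

lemma Data.inner_pp (x y : V) : inner ℝ (D.p x) (D.p y) = 96 * D.M x y := by
  rw [inner_eq_sum, ← D.Msq x y]
  refine Finset.sum_congr rfl (fun k _ => ?_)
  simp only [Data.p]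
  rw [D.Msymm y k]

lemma Data.inner_pg₁ (x : V) : inner ℝ (D.p x) D.gv₁ = 96 * D.g₁ x := by
  rw [inner_eq_sum]
  simp only [Data.p, Data.gv₁, Data.M]
  have e : ∀ k, ((if x = k then (16:ℝ) else 0) + 4 * D.a x k - 1) * D.g₁ k =
      (if x = k then 16 * D.g₁ k else 0) + 4 * (D.a x k * D.g₁ k) - D.g₁ k := by
    intro k
    by_cases h1 : x = k <;> simp [h1] <;> ring
  simp only [e]
  rw [Finset.sum_sub_distrib, Finset.sum_add_distrib, ← Finset.mul_sum, D.g₁eig x, D.g₁sum]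
  simp; ring

lemma Data.inner_pg₂ (x : V) : inner ℝ (D.p x) D.gv₂ = 96 * D.g₂ x := by
  rw [inner_eq_sum]
  simp only [Data.p, Data.gv₂, Data.M]
  have e : ∀ k, ((if x = k then (16:ℝ) else 0) + 4 * D.a x k - 1) * D.g₂ k =
      (if x = k then 16 * D.g₂ k else 0) + 4 * (D.a x k * D.g₂ k) - D.g₂ k := by
    intro k
    by_cases h1 : x = k <;> simp [h1] <;> ring
  simp only [e]
  rw [Finset.sum_sub_distrib, Finset.sum_add_distrib, ← Finset.mul_sum, D.g₂eig x, D.g₂sum]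
  simp; ring

lemma Data.inner_g₁g₁ : inner ℝ D.gv₁ D.gv₁ = 64 := by
  rw [inner_eq_sum]; simpa [Data.gv₁] using D.g₁sq
lemma Data.inner_g₂g₂ : inner ℝ D.gv₂ D.gv₂ = 64 := by
  rw [inner_eq_sum]; simpa [Data.gv₂] using D.g₂sq
lemma Data.inner_g₁g₂ : inner ℝ D.gv₁ D.gv₂ = 32 := by
  rw [inner_eq_sum]; simpa [Data.gv₁, Data.gv₂] using D.g₁₂

/-- The linear projector `M / 96`. -/
noncomputable def Data.P : E →ₗ[ℝ] E :=
  Matrix.toEuclideanLin (Matrix.of (fun x y => (1/96 : ℝ) * D.M x y))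

lemma Data.P_apply (u : E) (x : V) : D.P u x = (1/96 : ℝ) * inner ℝ (D.p x) u := by
  simp only [Data.P, Matrix.toEuclideanLin_apply, Matrix.mulVec, dotProduct, Matrix.of_apply]
  rw [inner_eq_sum, Finset.mul_sum]
  refine Finset.sum_congr rfl (fun k _ => ?_)
  simp [Data.p]; ring

lemma Data.P_p (x : V) : D.P (D.p x) = D.p x := by
  ext y
  rw [D.P_apply, D.inner_pp]
  simp only [Data.p]
  rw [D.Msymm y x]; ring

lemma Data.P_g₁ : D.P D.gv₁ = D.gv₁ := by
  ext y
  rw [D.P_apply, D.inner_pg₁]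
  simp only [Data.gv₁]; ring

lemma Data.P_g₂ : D.P D.gv₂ = D.gv₂ := by
  ext y
  rw [D.P_apply, D.inner_pg₂]
  simp only [Data.gv₂]; ring

lemma Data.P_idem : IsIdempotentElem D.P := by
  unfold IsIdempotentElem
  have hN : (Matrix.of (fun x y => (1/96 : ℝ) * D.M x y)) * (Matrix.of (fun x y => (1/96 : ℝ) * D.M x y))
      = Matrix.of (fun x y => (1/96 : ℝ) * D.M x y) := by
    ext x y
    simp only [Matrix.mul_apply, Matrix.of_apply]
    have : ∀ k, (1/96 : ℝ) * D.M x k * ((1/96 : ℝ) * D.M k y)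
        = (1/96 : ℝ) * (1/96 : ℝ) * (D.M x k * D.M k y) := fun k => by ring
    simp only [this]
    rw [← Finset.mul_sum, D.Msq x y]; ring
  ext u y
  simp only [Data.P, Module.End.mul_apply, Matrix.toEuclideanLin_apply, WithLp.ofLp_toLp,
    Matrix.mulVec_mulVec, hN]

/-- The trace of the projector is 65. -/
lemma Data.trace_P : LinearMap.trace ℝ E D.P = 65 := by
  have h : LinearMap.trace ℝ E D.P
      = (Matrix.of (fun x y => (1/96 : ℝ) * D.M x y)).trace := by
    simp only [Data.P, Matrix.toEuclideanLin_eq_toLin]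
    exact Matrix.trace_toLin_eq _ _
  rw [h]
  simp [Matrix.trace, Matrix.diag, D.Mdiag]
  norm_num

lemma Data.finrank_range : finrank ℝ (LinearMap.range D.P) = 65 := by
  have h := (LinearMap.IsIdempotentElem.isProj_range D.P D.P_idem).trace
  rw [D.trace_P] at h
  exact_mod_cast h.symm

/-- The plane spanned by the two eigenfunctions. -/
noncomputable def Data.plane : Submodule ℝ E := Submodule.span ℝ {D.gv₁, D.gv₂}

lemma Data.li : LinearIndependent ℝ ![D.gv₁, D.gv₂] := by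
  rw [LinearIndependent.pair_iff]
  intro s t h
  have h1 : inner ℝ (s • D.gv₁ + t • D.gv₂) D.gv₁ = 0 := by rw [h]; simp
  have h2 : inner ℝ (s • D.gv₁ + t • D.gv₂) D.gv₂ = 0 := by rw [h]; simp
  rw [inner_add_left, inner_smul_left, inner_smul_left, D.inner_g₁g₁, real_inner_comm,
    D.inner_g₁g₂] at h1
  rw [inner_add_left, inner_smul_left, inner_smul_left, D.inner_g₂g₂, D.inner_g₁g₂] at h2
  simp at h1 h2
  constructor <;> linarith

lemma Data.finrank_plane : finrank ℝ D.plane = 2 := by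
  have h := finrank_span_eq_card D.li
  have hr : Set.range ![D.gv₁, D.gv₂] = {D.gv₁, D.gv₂} := by
    ext u
    simp only [Set.mem_range, Fin.exists_fin_two, Matrix.cons_val_zero, Matrix.cons_val_one,
      Set.mem_insert_iff, Set.mem_singleton_iff, eq_comm]
  rw [hr] at h
  unfold Data.plane
  rw [h]
  simp

lemma Data.plane_le : D.plane ≤ LinearMap.range D.P := by
  unfold Data.plane
  rw [Submodule.span_le]
  intro u hu
  rcases hu with rfl | hu
  · exact ⟨_, D.P_g₁⟩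
  · rw [Set.mem_singleton_iff] at hu; subst hu; exact ⟨_, D.P_g₂⟩

/-- The 63-dimensional subspace. -/
noncomputable def Data.W : Submodule ℝ E := D.planeᗮ ⊓ LinearMap.range D.P

lemma Data.finrank_W : finrank ℝ D.W = 63 := by
  have h := Submodule.finrank_add_inf_finrank_orthogonal D.plane_le
  rw [D.finrank_plane, D.finrank_range] at h
  unfold Data.W
  omega

lemma Data.mem_W {u : E} (h1 : inner ℝ u D.gv₁ = 0) (h2 : inner ℝ u D.gv₂ = 0)
    (h3 : D.P u = u) : u ∈ D.W := by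
  refine Submodule.mem_inf.mpr ⟨?_, ⟨u, h3⟩⟩
  rw [Submodule.mem_orthogonal']
  intro v hv
  unfold Data.plane at hv
  induction hv using Submodule.span_induction with
  | mem v hv =>
    rcases hv with rfl | hv
    · exact h1
    · rw [Set.mem_singleton_iff] at hv; subst hv; exact h2
  | zero => simp
  | add x y _ _ hx hy => rw [inner_add_right, hx, hy, add_zero]
  | smul c x _ hx => rw [inner_smul_right, hx, mul_zero]

/-- `z'`: the point `z` projected on the subspace. -/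
noncomputable def Data.z' : E := D.p D.z - D.gv₁ - D.gv₂

lemma Data.z'_g₁ : inner ℝ D.z' D.gv₁ = 0 := by
  unfold Data.z'
  rw [inner_sub_left, inner_sub_left, D.inner_pg₁, D.inner_g₁g₁, real_inner_comm, D.inner_g₁g₂,
    D.g₁z]
  norm_num

lemma Data.z'_g₂ : inner ℝ D.z' D.gv₂ = 0 := by
  unfold Data.z'
  rw [inner_sub_left, inner_sub_left, D.inner_pg₂, D.inner_g₂g₂, D.inner_g₁g₂, D.g₂z]
  norm_num

lemma Data.z'_P : D.P D.z' = D.z' := by
  unfold Data.z'
  rw [map_sub, map_sub, D.P_p, D.P_g₁, D.P_g₂]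

lemma Data.z'_mem : D.z' ∈ D.W := D.mem_W D.z'_g₁ D.z'_g₂ D.z'_P

lemma Data.z'_p {x : V} (hx1 : D.g₁ x = 0) (hx2 : D.g₂ x = 0) :
    inner ℝ D.z' (D.p x) = 96 * D.M D.z x := by
  unfold Data.z'
  rw [inner_sub_left, inner_sub_left, D.inner_pp, real_inner_comm, D.inner_pg₁, real_inner_comm,
    D.inner_pg₂, hx1, hx2]
  ring

lemma Data.z'_z' : inner ℝ D.z' D.z' = 1248 := by
  have h : inner ℝ D.z' D.z' = inner ℝ D.z' (D.p D.z) := by
    conv_lhs => rw [show D.z' = D.p D.z - D.gv₁ - D.gv₂ from rfl]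
    rw [inner_sub_right, inner_sub_right]
    have h1 : inner ℝ (D.p D.z - D.gv₁ - D.gv₂) D.gv₁ = 0 := D.z'_g₁
    have h2 : inner ℝ (D.p D.z - D.gv₁ - D.gv₂) D.gv₂ = 0 := D.z'_g₂
    rw [h1, h2]; simp [Data.z']
  rw [h]
  unfold Data.z'
  rw [inner_sub_left, inner_sub_left, D.inner_pp, real_inner_comm, D.inner_pg₁, real_inner_comm,
    D.inner_pg₂, D.g₁z, D.g₂z, D.Mdiag]
  norm_num

/-- the scaling factor, root of `13 t² + 2 t = 17` -/
noncomputable def tt : ℝ := (Real.sqrt 222 - 1) / 13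

lemma tt_pos : 0 < tt := by
  unfold tt
  have : (1:ℝ) < Real.sqrt 222 := by
    rw [show (1:ℝ) = Real.sqrt 1 by simp]
    exact Real.sqrt_lt_sqrt (by norm_num) (by norm_num)
  linarith

lemma tt_eq : 13 * tt ^ 2 + 2 * tt = 17 := by
  unfold tt
  have h : Real.sqrt 222 ^ 2 = 222 := Real.sq_sqrt (by norm_num)
  field_simp
  nlinarith [h]

/-- The ghost point. -/
noncomputable def Data.q : E := tt • D.z'

lemma Data.q_mem : D.q ∈ D.W := D.W.smul_mem _ D.z'_mem

lemma Data.p_mem {x : V} (hx1 : D.g₁ x = 0) (hx2 : D.g₂ x = 0) : D.p x ∈ D.W := by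
  refine D.mem_W ?_ ?_ (D.P_p x)
  · rw [D.inner_pg₁, hx1]; ring
  · rw [D.inner_pg₂, hx2]; ring

lemma norm_sub_sq_eq (u v : E) :
    ‖u - v‖ ^ 2 = inner ℝ u u - 2 * inner ℝ u v + inner ℝ v v := by
  rw [norm_sub_sq_real, real_inner_self_eq_norm_sq, real_inner_self_eq_norm_sq]

lemma Data.M_cases {x y : V} (hxy : x ≠ y) : D.a x y = 0 ∧ D.M x y = -1 ∨ D.a x y = 1 ∧ D.M x y = 3 := by
  rcases D.a01 x y with h | h
  · left; refine ⟨h, ?_⟩; simp [Data.M, hxy, h]
  · right; refine ⟨h, ?_⟩; simp [Data.M, hxy, h]; norm_num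

/-- squared distances among ordinary points -/
lemma Data.dist_pp {x y : V} (hxy : x ≠ y) :
    (D.a x y = 0 ∧ ‖D.p x - D.p y‖ ^ 2 = 3072) ∨ (D.a x y = 1 ∧ ‖D.p x - D.p y‖ ^ 2 = 2304) := by
  rw [norm_sub_sq_eq, D.inner_pp, D.inner_pp, D.inner_pp, D.Mdiag, D.Mdiag]
  rcases D.M_cases hxy with ⟨h1, h2⟩ | ⟨h1, h2⟩
  · left; refine ⟨h1, ?_⟩; rw [h2]; norm_num
  · right; refine ⟨h1, ?_⟩; rw [h2]; norm_num

/-- squared distances from the ghost point -/
lemma Data.dist_qp {x : V} (hxz : x ≠ D.z) (hx1 : D.g₁ x = 0) (hx2 : D.g₂ x = 0) :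
    (D.a D.z x = 0 ∧ ‖D.q - D.p x‖ ^ 2 = 3072) ∨ (D.a D.z x = 1 ∧ ‖D.q - D.p x‖ ^ 2 ≤ 3072) := by
  have hq : inner ℝ D.q D.q = tt ^ 2 * 1248 := by
    unfold Data.q
    rw [inner_smul_left, inner_smul_right, D.z'_z']
    simp; ring
  have hqp : inner ℝ D.q (D.p x) = tt * (96 * D.M D.z x) := by
    unfold Data.q
    rw [inner_smul_left, D.z'_p hx1 hx2]
    simp
  rw [norm_sub_sq_eq, hq, hqp, D.inner_pp, D.Mdiag]
  have ht := tt_eq
  have ht0 := tt_pos
  rcases D.M_cases (Ne.symm hxz) with ⟨h1, h2⟩ | ⟨h1, h2⟩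
  · left; refine ⟨h1, ?_⟩; rw [h2]; nlinarith
  · right; refine ⟨h1, ?_⟩; rw [h2]; nlinarith

/-- The placement of the vertices of `U`. -/
noncomputable def Data.pt (x : V) : E := if x = D.z then D.q else D.p x

lemma Data.pt_mem {x : V} (hx : x ∈ D.U) : D.pt x ∈ D.W := by
  unfold Data.pt
  split_ifs with h
  · exact D.q_mem
  · obtain ⟨h1, h2⟩ := D.Uvanish x hx h
    exact D.p_mem h1 h2

/-- Non-adjacent pairs are at distance exactly `√3072`, all other pairs are not farther. -/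
lemma Data.pt_dist {x y : V} (hx : x ∈ D.U) (hy : y ∈ D.U) (hxy : x ≠ y) :
    (D.a x y = 0 → ‖D.pt x - D.pt y‖ ^ 2 = 3072) ∧ ‖D.pt x - D.pt y‖ ^ 2 ≤ 3072 := by
  unfold Data.pt
  by_cases hxz : x = D.z
  · have hyz : y ≠ D.z := fun h => hxy (hxz.trans h.symm)
    rw [if_pos hxz, if_neg hyz]
    obtain ⟨h1, h2⟩ := D.Uvanish y hy hyz
    subst hxz
    rcases D.dist_qp hyz h1 h2 with ⟨h3, h4⟩ | ⟨h3, h4⟩
    · exact ⟨fun _ => h4, h4.le⟩
    · refine ⟨fun h => ?_, h4⟩
      rw [h3] at h; norm_num at h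
  · rw [if_neg hxz]
    by_cases hyz : y = D.z
    · rw [if_pos hyz]
      obtain ⟨h1, h2⟩ := D.Uvanish x hx hxz
      rw [norm_sub_rev, D.asymm x y]
      subst hyz
      rcases D.dist_qp hxz h1 h2 with ⟨h3, h4⟩ | ⟨h3, h4⟩
      · exact ⟨fun _ => h4, h4.le⟩
      · refine ⟨fun h => ?_, h4⟩
        rw [h3] at h; norm_num at h
    · rw [if_neg hyz]
      rcases D.dist_pp hxy with ⟨h3, h4⟩ | ⟨h3, h4⟩
      · exact ⟨fun _ => h4, h4.le⟩
      · refine ⟨fun h => ?_, by rw [h4]; norm_num⟩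
        rw [h3] at h; norm_num at h

end Vale.Agent.Lib.P052.Geom
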