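import Vale.Agent.Lib.P052.Check

namespace Vale.Agent.Lib.P052.Check

open Vale.Agent.Lib.P052.Data

theorem check1_ok : check1 = true := by decide +kernel
theorem check2_ok : check2 = true := by decide +kernel
theorem check3_ok : check3 = true := by decide +kernel
theorem check4_ok : check4 = true := by decide +kernel
theorem check5_ok : check5 = true := by decide +kernel
theorem check6_ok : check6 = true := by decide +kernel
theorem index_ok : indexOK 0 tbl = true := by decide +kernel
theorem length_ok : tbl.length = 416 := by decide +kernel
theorem zV_lt : zV < 416 := by decide +kernel
theorem hom0_ok : homOK gen0 = true := by decide +kernel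
theorem hom1_ok : homOK gen1 = true := by decide +kernel
theorem sch_ok : sch.foldl schStep 1 = Nat.sub (Nat.pow 2 416) 1 := by decide +kernel
theorem card_ok : ((List.range 416).filter inU).length = 321 := by decide +kernel

end Vale.Agent.Lib.P052.Check
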