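import Mathlib
import Vale.Agent.Lib.P052.Verified

/-!
Translation of the Boolean table checks into statements about sums.
-/

namespace Vale.Agent.Lib.P052.Sound

open Vale.Agent.Lib.P052.Data Vale.Agent.Lib.P052.Check Finset

attribute [local irreducible] tbl pkP1 pkP2 pkP3

lemma bit_le (p y : ℕ) : bit p y ≤ 1 := by
  unfold bit
  have := Nat.mod_lt (Nat.shiftRight p (Nat.mul 8 y)) (show 2 > 0 by norm_num)
  show (Nat.shiftRight p (Nat.mul 8 y)) % 2 ≤ 1
  omega

lemma allT_iff {f : ℕ → ℕ → Bool} {L : List (ℕ × ℕ)} :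
    allT f L = true ↔ ∀ u ∈ L, f u.1 u.2 = true := by
  induction L with
  | nil => simp [allT]
  | cons h t ih => simp [allT, ih]

/-- The table line number `k`. -/
lemma index_get : ∀ (L : List (ℕ × ℕ)) (i : ℕ), indexOK i L = true →
    ∀ u ∈ L, ∃ k, k < L.length ∧ L.getD k (0, 0) = u ∧ u.1 = i + k := by
  intro L
  induction L with
  | nil => simp
  | cons h t ih =>
    intro i hi u hu
    simp only [indexOK, Bool.and_eq_true, Nat.beq_eq] at hi
    rcases List.mem_cons.mp hu with rfl | hu
    · exact ⟨0, by simp, by simp, by simpa using hi.1⟩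
    · obtain ⟨k, hk, h1, h2⟩ := ih _ hi.2 u hu
      refine ⟨k + 1, by simpa using hk, by simpa using h1, ?_⟩
      rw [h2]; simp only [Nat.succ_eq_add_one]; ring

lemma tbl_snd {u : ℕ × ℕ} (hu : u ∈ tbl) : u.2 = pk u.1 ∧ u.1 < 416 := by
  obtain ⟨k, hk, h1, h2⟩ := index_get tbl 0 index_ok u hu
  have h3 : u.1 = k := by simpa using h2
  rw [length_ok] at hk
  refine ⟨?_, by omega⟩
  unfold pk
  rw [h3, h1]

/-- Every vertex below 416 has its line. -/
lemma tbl_mem {x : ℕ} (hx : x < 416) : (x, pk x) ∈ tbl := by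
  have hlen : x < tbl.length := by rw [length_ok]; exact hx
  have hget : tbl.getD x (0, 0) ∈ tbl := by
    rw [List.getD_eq_getElem _ _ hlen]
    exact List.getElem_mem hlen
  have hs := tbl_snd hget
  -- the first coordinate of line x is x
  have hidx : ∀ (L : List (ℕ × ℕ)) (i : ℕ), indexOK i L = true →
      ∀ k, k < L.length → (L.getD k (0, 0)).1 = i + k := by
    intro L
    induction L with
    | nil => simp
    | cons h t ih =>
      intro i hi k hk
      simp only [indexOK, Bool.and_eq_true, Nat.beq_eq] at hi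
      cases k with
      | zero => simpa using hi.1
      | succ k =>
        have := ih _ hi.2 k (by simpa using hk)
        simp only [List.getD_cons_succ]
        rw [this]; simp only [Nat.succ_eq_add_one]; ring
  have h1 : (tbl.getD x (0, 0)).1 = x := by
    have := hidx tbl 0 index_ok x hlen
    simpa using this
  have : tbl.getD x (0, 0) = (x, pk x) := by
    ext
    · exact h1
    · rfl
  rw [← this]; exact hget

/-- A property of all lines gives a property of all vertices. -/
lemma allT_vertex {f : ℕ → ℕ → Bool} (h : allT f tbl = true) {x : ℕ} (hx : x < 416) :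
    f x (pk x) = true :=
  (allT_iff.mp h) (x, pk x) (tbl_mem hx)

lemma rebuild_eq (p k : ℕ) : rebuild p k = ∑ y ∈ range k, bit p y * 256 ^ y := by
  induction k with
  | zero => rfl
  | succ k ih =>
    rw [sum_range_succ, ← ih]
    show Nat.add (Nat.mul (bit p k) (Nat.pow 256 k)) (rebuild p k) = _
    simp only [Nat.add_eq, Nat.mul_eq, Nat.pow_eq]
    ring

lemma rowSum_eq (p k : ℕ) : rowSum p k = ∑ y ∈ range k, bit p y := by
  induction k with
  | zero => rfl
  | succ k ih =>
    rw [sum_range_succ, ← ih]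
    show Nat.add (bit p k) (rowSum p k) = _
    simp only [Nat.add_eq]
    ring

lemma dotS_eq (p q k : ℕ) : dotS p q k = ∑ y ∈ range k, bit p y * bit q y := by
  induction k with
  | zero => rfl
  | succ k ih =>
    rw [sum_range_succ, ← ih]
    show Nat.add (Nat.mul (bit p k) (bit q k)) (dotS p q k) = _
    simp only [Nat.add_eq, Nat.mul_eq]
    ring

/-- The evaluation in base 256. -/
def ev (c : ℕ → ℕ) : ℕ := ∑ y ∈ range 416, c y * 256 ^ y

/-- Uniqueness of base 256 digits. -/
lemma digits_unique : ∀ (n : ℕ) (c d : ℕ → ℕ), (∀ y < n, c y < 256) → (∀ y < n, d y < 256) →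
    ∑ y ∈ range n, c y * 256 ^ y = ∑ y ∈ range n, d y * 256 ^ y → ∀ y < n, c y = d y := by
  intro n
  induction n with
  | zero => simp
  | succ n ih =>
    intro c d hc hd h y hy
    rw [sum_range_succ', sum_range_succ'] at h
    have e : ∀ e : ℕ → ℕ, ∑ k ∈ range n, e (k + 1) * 256 ^ (k + 1)
        = 256 * ∑ k ∈ range n, e (k + 1) * 256 ^ k := by
      intro e
      rw [mul_sum]
      refine sum_congr rfl (fun k _ => ?_)
      ring
    rw [e c, e d] at h
    have hc0 := hc 0 (by omega)
    have hd0 := hd 0 (by omega)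
    simp only [pow_zero, mul_one] at h
    have h0 : c 0 = d 0 := by omega
    have h1 : ∑ k ∈ range n, c (k + 1) * 256 ^ k = ∑ k ∈ range n, d (k + 1) * 256 ^ k := by
      rw [h0] at h
      omega
    cases y with
    | zero => exact h0
    | succ y =>
      exact ih (fun k => c (k + 1)) (fun k => d (k + 1))
        (fun k hk => hc _ (by omega)) (fun k hk => hd _ (by omega)) h1 y (by omega)

lemma ev_inj {c d : ℕ → ℕ} (hc : ∀ y < 416, c y < 256) (hd : ∀ y < 416, d y < 256)
    (h : ev c = ev d) : ∀ y < 416, c y = d y :=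
  digits_unique 416 c d hc hd h

/-- adjacency over the naturals -/
def aN (x y : ℕ) : ℕ := bit (pk x) y

lemma pk_eq {x : ℕ} (hx : x < 416) : pk x = ev (aN x) := by
  have h := allT_vertex check1_ok hx
  simp only [Bool.and_eq_true, Nat.beq_eq] at h
  have h1 := h.1
  rw [rebuild_eq] at h1
  exact h1

lemma rowsum_aN {x : ℕ} (hx : x < 416) : ∑ y ∈ range 416, aN x y = 100 := by
  have h := allT_vertex check1_ok hx
  simp only [Bool.and_eq_true, Nat.beq_eq] at h
  have h1 := h.2.1
  rw [rowSum_eq] at h1
  exact h1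

lemma aN_diag {x : ℕ} (hx : x < 416) : aN x x = 0 := by
  have h := allT_vertex check1_ok hx
  simp only [Bool.and_eq_true, Nat.beq_eq] at h
  exact h.2.2

lemma aN_symm {x y : ℕ} (hx : x < 416) (hy : y < 416) : aN x y = aN y x := by
  have h := allT_vertex check2_ok hx
  have h2 := allT_vertex h hy
  exact Nat.eq_of_beq_eq_true h2

lemma colsum_aN {y : ℕ} (hy : y < 416) : ∑ z ∈ range 416, aN z y = 100 := by
  rw [← rowsum_aN hy]
  refine sum_congr rfl (fun z hz => aN_symm (mem_range.mp hz) hy)

/-- The list form of the table. -/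
lemma sumRow_eq_list (p : ℕ) : ∀ L : List (ℕ × ℕ), sumRow p L = (L.map (fun u => bit p u.1 * u.2)).sum := by
  intro L
  induction L with
  | nil => rfl
  | cons h t ih =>
    show Nat.add (Nat.mul (bit p h.1) h.2) (sumRow p t) = _
    simp only [Nat.add_eq, Nat.mul_eq, List.map_cons, List.sum_cons, ih]

/-- The table has no repeated lines and its lines are exactly the pairs (x, pk x). -/
lemma tbl_eq : tbl = (List.range 416).map (fun x => (x, pk x)) := by
  apply List.ext_getElem
  · rw [length_ok, List.length_map, List.length_range]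
  · intro i h1 h2
    have hi : i < 416 := by rw [length_ok] at h1; exact h1
    have hu : tbl[i]'h1 ∈ tbl := List.getElem_mem h1
    have hs := tbl_snd hu
    obtain ⟨k, hk, h3, h4⟩ := index_get tbl 0 index_ok _ hu
    -- use the line index lemma
    have hmem := tbl_mem hi
    simp only [List.getElem_map, List.getElem_range]
    have hidx : ∀ (L : List (ℕ × ℕ)) (i : ℕ), indexOK i L = true →
        ∀ k (hk : k < L.length), (L[k]).1 = i + k := by
      intro L
      induction L with
      | nil => simp
      | cons h t ih =>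
        intro i hi k hk
        simp only [indexOK, Bool.and_eq_true, Nat.beq_eq] at hi
        cases k with
        | zero => simpa using hi.1
        | succ k =>
          have := ih _ hi.2 k (by simpa using hk)
          simp only [List.getElem_cons_succ]
          rw [this]; simp only [Nat.succ_eq_add_one]; ring
    have h5 : (tbl[i]'h1).1 = i := by simpa using hidx tbl 0 index_ok i h1
    ext
    · exact h5
    · rw [hs.1, h5]

lemma sum_list_range (f : ℕ → ℕ) (n : ℕ) :
    ((List.range n).map f).sum = ∑ z ∈ range n, f z := by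
  induction n with
  | zero => simp
  | succ n ih => simp [List.range_succ, sum_range_succ, ih]

lemma sumRow_tbl (p : ℕ) : sumRow p tbl = ∑ z ∈ range 416, bit p z * pk z := by
  rw [sumRow_eq_list, tbl_eq, List.map_map]
  exact sum_list_range _ _

/-- Matrix-vector product in base 256. -/
lemma sumRow_ev (p : ℕ) :
    sumRow p tbl = ev (fun y => ∑ z ∈ range 416, bit p z * aN z y) := by
  rw [sumRow_tbl]
  unfold ev
  have : ∀ z ∈ range 416, bit p z * pk z = ∑ y ∈ range 416, bit p z * aN z y * 256 ^ y := by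
    intro z hz
    rw [pk_eq (mem_range.mp hz)]
    unfold ev
    rw [mul_sum]
    refine sum_congr rfl (fun y _ => ?_)
    ring
  rw [sum_congr rfl this, sum_comm]
  refine sum_congr rfl (fun y _ => ?_)
  rw [sum_mul]

/-- `256 ^ x` in digit form. -/
lemma pow_ev {x : ℕ} (hx : x < 416) : 256 ^ x = ev (fun y => if y = x then 1 else 0) := by
  unfold ev
  simp only [ite_mul, one_mul, zero_mul, sum_ite_eq', mem_range, hx, if_true]

lemma ones_ev : (256 ^ 416 - 1) / 255 = ev (fun _ => 1) := by
  unfold ev
  simp only [one_mul]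
  rw [Nat.geomSum_eq (by norm_num)]

lemma ev_add (c d : ℕ → ℕ) : ev (fun y => c y + d y) = ev c + ev d := by
  unfold ev
  rw [← sum_add_distrib]
  refine sum_congr rfl (fun y _ => ?_)
  ring

lemma ev_mul (m : ℕ) (c : ℕ → ℕ) : ev (fun y => m * c y) = m * ev c := by
  unfold ev
  rw [mul_sum]
  refine sum_congr rfl (fun y _ => ?_)
  ring

lemma sum_bit_aN_le (p : ℕ) {y : ℕ} (hy : y < 416) :
    ∑ z ∈ range 416, bit p z * aN z y ≤ 100 := by
  rw [← colsum_aN hy]
  refine sum_le_sum (fun z _ => ?_)
  have h1 := bit_le p z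
  calc bit p z * aN z y ≤ 1 * aN z y := Nat.mul_le_mul_right _ h1
    _ = aN z y := one_mul _

/-- strong regularity, over the naturals -/
lemma srg {x y : ℕ} (hx : x < 416) (hy : y < 416) :
    ∑ z ∈ range 416, aN x z * aN z y + 20 * aN x y + 20 * (if y = x then 1 else 0)
      = 100 * (if y = x then 1 else 0) + 36 * aN x y + 20 := by
  have h := allT_vertex check3_ok hx
  simp only [Nat.beq_eq] at h
  simp only [Nat.add_eq, Nat.mul_eq, Nat.pow_eq, Nat.sub_eq] at h
  have e5 : Nat.div (256 ^ 416 - 1) 255 = (256 ^ 416 - 1) / 255 := rfl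
  rw [e5] at h
  have e1 : sumRow (pk x) tbl = ev (fun y => ∑ z ∈ range 416, aN x z * aN z y) := sumRow_ev (pk x)
  have e2 := pk_eq hx
  have e3 := pow_ev hx
  have e4 := ones_ev
  rw [e1, e4] at h
  rw [e3] at h
  rw [e2] at h
  rw [← ev_mul, ← ev_mul, ← ev_mul, ← ev_mul, ← ev_mul, ← ev_add, ← ev_add, ← ev_add, ← ev_add] at h
  have hb1 : ∀ {u v : ℕ}, u < 416 → v < 416 → aN u v ≤ 1 := fun _ _ => bit_le _ _
  refine ev_inj (c := fun y => ∑ z ∈ range 416, aN x z * aN z y + 20 * aN x y + 20 * (if y = x then 1 else 0))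
    (d := fun y => 100 * (if y = x then 1 else 0) + 36 * aN x y + 20 * 1) ?_ ?_ h y hy
  · intro y hy
    have h1 := sum_bit_aN_le (pk x) hy
    have h2 : aN x y ≤ 1 := bit_le _ _
    have h3 : (if y = x then 1 else 0) ≤ 1 := by split_ifs <;> omega
    change ∑ z ∈ range 416, bit (pk x) z * aN z y + 20 * aN x y + 20 * (if y = x then 1 else 0) < 256
    omega
  · intro y hy
    have h2 : aN x y ≤ 1 := bit_le _ _
    have h3 : (if y = x then 1 else 0) ≤ 1 := by split_ifs <;> omega
    change 100 * (if y = x then 1 else 0) + 36 * aN x y + 20 * 1 < 256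
    omega

/-- digit facts of the three parts -/
lemma check6_facts :
    pkP1 = ev (bit pkP1) ∧ pkP2 = ev (bit pkP2) ∧ pkP3 = ev (bit pkP3) ∧
    ∑ y ∈ range 416, bit pkP1 y * bit pkP1 y = 32 ∧ ∑ y ∈ range 416, bit pkP2 y * bit pkP2 y = 32 ∧
    ∑ y ∈ range 416, bit pkP3 y * bit pkP3 y = 32 ∧ ∑ y ∈ range 416, bit pkP1 y * bit pkP2 y = 0 ∧
    ∑ y ∈ range 416, bit pkP1 y * bit pkP3 y = 0 ∧ ∑ y ∈ range 416, bit pkP2 y * bit pkP3 y = 0 ∧
    ∑ y ∈ range 416, bit pkP1 y = 32 ∧ ∑ y ∈ range 416, bit pkP2 y = 32 ∧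
    ∑ y ∈ range 416, bit pkP3 y = 32 ∧ bit pkP1 zV = 1 ∧ bit pkP2 zV = 0 ∧ bit pkP3 zV = 0 := by
  have h := check6_ok
  unfold check6 at h
  simp only [Bool.and_eq_true, Nat.beq_eq, rebuild_eq, dotS_eq, rowSum_eq] at h
  exact h

/-- eigenfunction relation, over the naturals -/
lemma eig_aux {P Q : ℕ} (hP : P = ev (bit P)) (hQ : Q = ev (bit Q))
    (h : sumRow P tbl + 20 * Q = sumRow Q tbl + 20 * P) {y : ℕ} (hy : y < 416) :
    ∑ z ∈ range 416, bit P z * aN z y + 20 * bit Q y
      = ∑ z ∈ range 416, bit Q z * aN z y + 20 * bit P y := by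
  rw [sumRow_ev, sumRow_ev] at h
  conv at h =>
    lhs
    rw [hQ]
  conv at h =>
    rhs
    rw [hP]
  rw [← ev_mul, ← ev_mul, ← ev_add, ← ev_add] at h
  refine ev_inj (c := fun y => ∑ z ∈ range 416, bit P z * aN z y + 20 * bit Q y)
    (d := fun y => ∑ z ∈ range 416, bit Q z * aN z y + 20 * bit P y) ?_ ?_ h y hy
  · intro y hy
    have h1 := sum_bit_aN_le P hy
    have h2 := bit_le Q y
    change ∑ z ∈ range 416, bit P z * aN z y + 20 * bit Q y < 256
    omega
  · intro y hy
    have h1 := sum_bit_aN_le Q hy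
    have h2 := bit_le P y
    change ∑ z ∈ range 416, bit Q z * aN z y + 20 * bit P y < 256
    omega

lemma eig12 {y : ℕ} (hy : y < 416) :
    ∑ z ∈ range 416, bit pkP1 z * aN z y + 20 * bit pkP2 y
      = ∑ z ∈ range 416, bit pkP2 z * aN z y + 20 * bit pkP1 y := by
  have h := check4_ok
  unfold check4 at h
  simp only [Bool.and_eq_true, Nat.beq_eq, Nat.add_eq, Nat.mul_eq] at h
  exact eig_aux check6_facts.1 check6_facts.2.1 h.1 hy

lemma eig13 {y : ℕ} (hy : y < 416) :
    ∑ z ∈ range 416, bit pkP1 z * aN z y + 20 * bit pkP3 y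
      = ∑ z ∈ range 416, bit pkP3 z * aN z y + 20 * bit pkP1 y := by
  have h := check4_ok
  unfold check4 at h
  simp only [Bool.and_eq_true, Nat.beq_eq, Nat.add_eq, Nat.mul_eq] at h
  exact eig_aux check6_facts.1 check6_facts.2.2.1 h.2 hy

/-! ### cliques -/

/-- A clique in the table. -/
def Cl (C : Finset ℕ) : Prop := (∀ x ∈ C, x < 416) ∧ ∀ x ∈ C, ∀ y ∈ C, x ≠ y → aN x y = 1

lemma noK_sound : ∀ (k : ℕ) (L : List (ℕ × ℕ)), (∀ u ∈ L, u.2 = pk u.1) → noK k L = true →
    ∀ C : Finset ℕ, (∀ x ∈ C, x ∈ L.map Prod.fst) →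
      (∀ x ∈ C, ∀ y ∈ C, x ≠ y → aN x y = 1) → C.card < k := by
  intro k
  induction k with
  | zero => intro L _ h; simp [noK] at h
  | succ k ih =>
    intro L
    induction L with
    | nil =>
      intro _ _ C hC _
      have : C = ∅ := by
        apply Finset.eq_empty_of_forall_notMem
        intro x hx
        simpa using hC x hx
      simp [this]
    | cons u t ihL =>
      intro hL hN C hC hadj
      have hN' : noK (k + 1) (u :: t) = tailsAll (noK k) (u :: t) := rfl
      rw [hN'] at hN
      simp only [tailsAll, Bool.and_eq_true] at hN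
      have ht : ∀ v ∈ t, v.2 = pk v.1 := fun v hv => hL v (List.mem_cons_of_mem _ hv)
      have hmem : ∀ x ∈ C, x ≠ u.1 → x ∈ t.map Prod.fst := by
        intro x hx hne
        have := hC x hx
        simp only [List.map_cons, List.mem_cons] at this
        rcases this with h | h
        · exact absurd h hne
        · exact h
      by_cases hu : u.1 ∈ C
      · have hcard : (C.erase u.1).card < k := by
          refine ih (t.filter (fun w => Nat.beq (bit u.2 w.1) 1)) ?_ hN.1 (C.erase u.1) ?_ ?_
          · intro v hv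
            exact ht v (List.mem_of_mem_filter hv)
          · intro x hx
            have hx1 := Finset.mem_erase.mp hx
            have hx2 := hmem x hx1.2 hx1.1
            obtain ⟨v, hv, rfl⟩ := List.mem_map.mp hx2
            refine List.mem_map.mpr ⟨v, ?_, rfl⟩
            refine List.mem_filter.mpr ⟨hv, ?_⟩
            have hadj' := hadj u.1 hu v.1 hx1.2 (Ne.symm hx1.1)
            have : bit u.2 v.1 = 1 := by
              rw [hL u (List.mem_cons_self)]
              exact hadj'
            simp [this]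
          · intro x hx y hy hxy
            exact hadj x (Finset.mem_of_mem_erase hx) y (Finset.mem_of_mem_erase hy) hxy
        have := Finset.card_erase_add_one hu
        omega
      · have := ihL ht hN.2 C (fun x hx => hmem x hx (fun h => hu (h ▸ hx))) hadj
        exact this

/-- No large clique through a given vertex. -/
def PP (v : ℕ) : Prop := ∀ C : Finset ℕ, Cl C → v ∈ C → C.card ≤ 5

lemma PP_zero : PP 0 := by
  intro C hC h0
  have hN := check5_ok
  unfold check5 at hN
  have hcard : (C.erase 0).card < 5 := by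
    refine noK_sound 5 _ ?_ hN (C.erase 0) ?_ ?_
    · intro u hu
      exact (tbl_snd (List.mem_of_mem_filter hu)).1
    · intro x hx
      have hx1 := Finset.mem_erase.mp hx
      have hlt := hC.1 x hx1.2
      refine List.mem_map.mpr ⟨(x, pk x), List.mem_filter.mpr ⟨tbl_mem hlt, ?_⟩, rfl⟩
      have h1 : aN 0 x = 1 := hC.2 0 h0 x hx1.2 (Ne.symm hx1.1)
      have h2 : bit (pk 0) x = 1 := h1
      simp [h2]
    · intro x hx y hy hxy
      exact hC.2 x (Finset.mem_of_mem_erase hx) y (Finset.mem_of_mem_erase hy) hxy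
  have := Finset.card_erase_add_one h0
  omega

lemma homRow_spec (π : List ℕ) (p q : ℕ) : ∀ (L : List ℕ) (y0 : ℕ), homRow π p q y0 L = true →
    ∀ k, k < L.length → bit p (y0 + k) = 0 ∨ bit q (L.getD k 0) = 1 := by
  intro L
  induction L with
  | nil => simp
  | cons w t ih =>
    intro y0 h k hk
    simp only [homRow, Bool.and_eq_true, Bool.or_eq_true, Nat.beq_eq] at h
    cases k with
    | zero => simpa using h.1
    | succ k =>
      have := ih _ h.2 k (by simpa using hk)
      simp only [List.getD_cons_succ]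
      rw [show y0 + (k + 1) = Nat.succ y0 + k by simp only [Nat.succ_eq_add_one]; ring]
      exact this

/-- A map preserving adjacency: consequences. -/
lemma hom_facts {π : List ℕ} (h : homOK π = true) :
    (∀ x < 416, π.getD x 0 < 416) ∧
    ∀ x < 416, ∀ y < 416, aN x y = 1 → aN (π.getD x 0) (π.getD y 0) = 1 := by
  unfold homOK at h
  simp only [Bool.and_eq_true, Nat.beq_eq] at h
  obtain ⟨h1, h2, h3⟩ := h
  have hlen : π.length = 416 := h2
  constructor
  · intro x hx
    have hxl : x < π.length := by omega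
    rw [List.getD_eq_getElem _ _ hxl]
    have := (List.all_eq_true.mp h1) _ (List.getElem_mem hxl)
    simpa [Nat.blt] using this
  · intro x hx y hy hxy
    have h4 := allT_vertex h3 hx
    have h5 := homRow_spec π _ _ π 0 h4 y (by omega)
    rw [Nat.zero_add] at h5
    rcases h5 with h5 | h5
    · have : aN x y = 0 := h5
      omega
    · exact h5

/-- Transport along an adjacency preserving map. -/
lemma PP_transport {π : List ℕ} (h : homOK π = true) {w : ℕ} (hw : PP (π.getD w 0)) : PP w := by
  obtain ⟨h1, h2⟩ := hom_facts h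
  intro C hC hwC
  have hinj : Set.InjOn (fun x => π.getD x 0) (C : Set ℕ) := by
    intro x hx y hy hxy
    by_contra hne
    have h3 := h2 x (hC.1 x hx) y (hC.1 y hy) (hC.2 x hx y hy hne)
    simp only at hxy
    rw [hxy] at h3
    have h4 := aN_diag (h1 y (hC.1 y hy))
    omega
  have hcard : (C.image (fun x => π.getD x 0)).card = C.card := Finset.card_image_of_injOn hinj
  rw [← hcard]
  apply hw
  · constructor
    · intro x hx
      obtain ⟨u, hu, rfl⟩ := Finset.mem_image.mp hx
      exact h1 u (hC.1 u hu)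
    · intro x hx y hy hxy
      obtain ⟨u, hu, rfl⟩ := Finset.mem_image.mp hx
      obtain ⟨v, hv, rfl⟩ := Finset.mem_image.mp hy
      have hne : u ≠ v := fun e => hxy (by rw [e])
      exact h2 u (hC.1 u hu) v (hC.1 v hv) (hC.2 u hu v hv hne)
  · exact Finset.mem_image_of_mem _ hwC

lemma hom_gen (i : ℕ) : homOK (gen i) = true := by
  unfold gen
  split
  · exact hom0_ok
  · exact hom1_ok

/-- The invariant of the Schreier list. -/
def Inv (m : ℕ) : Prop := ∀ v, Nat.testBit m v = true → PP v

lemma Inv_step {m : ℕ} (hm : Inv m) (e : ℕ × ℕ × ℕ) : Inv (schStep m e) := by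
  unfold schStep
  split
  · rename_i h1 h2
    intro v hv
    have hv' : Nat.testBit (m ||| 2 ^ e.1) v = true := hv
    rw [Nat.testBit_or, Bool.or_eq_true] at hv'
    rcases hv' with hv' | hv'
    · exact hm v hv'
    · rw [Nat.testBit_two_pow] at hv'
      have hve : e.1 = v := by simpa using hv'
      subst hve
      have hp := hm _ h1
      have hg : (gen e.2.1).getD e.1 0 = e.2.2 := by simpa using h2
      exact PP_transport (hom_gen e.2.1) (by rw [hg]; exact hp)
  · exact hm

lemma Inv_fold : ∀ (L : List (ℕ × ℕ × ℕ)) (m : ℕ), Inv m → Inv (L.foldl schStep m) := by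
  intro L
  induction L with
  | nil => intro m h; exact h
  | cons e t ih =>
    intro m h
    exact ih _ (Inv_step h e)

lemma Inv_one : Inv 1 := by
  intro v hv
  have : v = 0 := by
    by_contra hne
    have h2 : Nat.testBit 1 v = false := by
      rcases Nat.exists_eq_succ_of_ne_zero hne with ⟨k, rfl⟩
      simp [Nat.testBit_succ]
    rw [h2] at hv
    exact absurd hv (by simp)
  rw [this]
  exact PP_zero

lemma PP_all {v : ℕ} (hv : v < 416) : PP v := by
  have h := Inv_fold sch 1 Inv_one
  rw [sch_ok] at h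
  apply h
  have : Nat.sub (Nat.pow 2 416) 1 = 2 ^ 416 - 1 := rfl
  rw [this, Nat.testBit_two_pow_sub_one]
  simpa using hv

/-- The clique number of the table is at most 5. -/
theorem clique_le {C : Finset ℕ} (hC : Cl C) : C.card ≤ 5 := by
  rcases C.eq_empty_or_nonempty with h | ⟨v, hv⟩
  · simp [h]
  · exact PP_all (hC.1 v hv) C hC hv

end Vale.Agent.Lib.P052.Sound
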