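import Vale.Agent.Lib.P052.Cover
import Vale.Agent.Lib.P052.Sound

namespace Vale.Agent.Lib.P052.Inst

open Vale.Agent.Lib.P052.Data Vale.Agent.Lib.P052.Check Vale.Agent.Lib.P052.Sound
open Vale.Agent.Lib.P052.Geom Finset

attribute [local irreducible] tbl pkP1 pkP2 pkP3 zV

lemma aN_01 (x y : ℕ) : aN x y = 0 ∨ aN x y = 1 := by
  have := bit_le (pk x) y
  change bit (pk x) y = 0 ∨ bit (pk x) y = 1
  omega

lemma bit_01 (p y : ℕ) : bit p y = 0 ∨ bit p y = 1 := by
  have := bit_le p y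
  omega

/-- A sum over `Fin 416` is a sum over `range 416`. -/
lemma sum_fin (f : ℕ → ℝ) : ∑ x : Fin 416, f x = ∑ x ∈ range 416, f x :=
  Fin.sum_univ_eq_sum_range f 416

lemma nat_sum_cast (f : ℕ → ℕ) : ∑ x ∈ range 416, (f x : ℝ) = ((∑ x ∈ range 416, f x : ℕ) : ℝ) := by
  push_cast; rfl

noncomputable def theData : Data where
  a := fun x y => (aN x y : ℝ)
  a01 := by
    intro x y
    rcases aN_01 x y with h | h
    · left; simp [h]
    · right; simp [h]
  asymm := by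
    intro x y
    rw [aN_symm x.2 y.2]
  adiag := by
    intro x
    rw [aN_diag x.2]; simp
  asq := by
    intro x y
    have h := srg x.2 y.2
    have h2 : ∑ k : Fin 416, (aN x k : ℝ) * (aN k y : ℝ)
        = ((∑ z ∈ range 416, aN x z * aN z y : ℕ) : ℝ) := by
      rw [sum_fin (fun k => (aN x k : ℝ) * (aN k y : ℝ))]
      push_cast; rfl
    rw [h2]
    have h3 : ((∑ z ∈ range 416, aN x z * aN z y + 20 * aN x y + 20 * (if (y:ℕ) = x then 1 else 0) : ℕ) : ℝ)
        = ((100 * (if (y:ℕ) = x then 1 else 0) + 36 * aN x y + 20 : ℕ) : ℝ) := by rw [h]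
    by_cases hxy : x = y
    · subst hxy
      simp only [if_true] at h3 ⊢
      push_cast at h3 ⊢
      linarith
    · have hne : (y : ℕ) ≠ x := fun e => hxy (Fin.ext e.symm)
      simp only [hne, if_false, hxy] at h3 ⊢
      push_cast at h3 ⊢
      linarith
  g₁ := fun y => (bit pkP1 y : ℝ) - (bit pkP2 y : ℝ)
  g₂ := fun y => (bit pkP1 y : ℝ) - (bit pkP3 y : ℝ)
  g₁eig := by
    intro x
    have h := eig12 x.2
    have h2 : ∀ k : Fin 416, (aN x k : ℝ) * ((bit pkP1 k : ℝ) - (bit pkP2 k : ℝ))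
        = ((bit pkP1 k * aN k x : ℕ) : ℝ) - ((bit pkP2 k * aN k x : ℕ) : ℝ) := by
      intro k
      rw [aN_symm x.2 k.2]
      push_cast; ring
    simp only [h2]
    rw [Finset.sum_sub_distrib, sum_fin (fun k => ((bit pkP1 k * aN k x : ℕ) : ℝ)),
      sum_fin (fun k => ((bit pkP2 k * aN k x : ℕ) : ℝ))]
    rw [nat_sum_cast, nat_sum_cast]
    have h3 : ((∑ z ∈ range 416, bit pkP1 z * aN z x + 20 * bit pkP2 x : ℕ) : ℝ)
        = ((∑ z ∈ range 416, bit pkP2 z * aN z x + 20 * bit pkP1 x : ℕ) : ℝ) := by rw [h]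
    push_cast at h3 ⊢
    linarith
  g₂eig := by
    intro x
    have h := eig13 x.2
    have h2 : ∀ k : Fin 416, (aN x k : ℝ) * ((bit pkP1 k : ℝ) - (bit pkP3 k : ℝ))
        = ((bit pkP1 k * aN k x : ℕ) : ℝ) - ((bit pkP3 k * aN k x : ℕ) : ℝ) := by
      intro k
      rw [aN_symm x.2 k.2]
      push_cast; ring
    simp only [h2]
    rw [Finset.sum_sub_distrib, sum_fin (fun k => ((bit pkP1 k * aN k x : ℕ) : ℝ)),
      sum_fin (fun k => ((bit pkP3 k * aN k x : ℕ) : ℝ))]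
    rw [nat_sum_cast, nat_sum_cast]
    have h3 : ((∑ z ∈ range 416, bit pkP1 z * aN z x + 20 * bit pkP3 x : ℕ) : ℝ)
        = ((∑ z ∈ range 416, bit pkP3 z * aN z x + 20 * bit pkP1 x : ℕ) : ℝ) := by rw [h]
    push_cast at h3 ⊢
    linarith
  g₁sum := by
    obtain ⟨-, -, -, -, -, -, -, -, -, h1, h2, h3, -⟩ := check6_facts
    rw [Finset.sum_sub_distrib, sum_fin (fun k => ((bit pkP1 k : ℕ) : ℝ)),
      sum_fin (fun k => ((bit pkP2 k : ℕ) : ℝ)), nat_sum_cast, nat_sum_cast, h1, h2]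
    norm_num
  g₂sum := by
    obtain ⟨-, -, -, -, -, -, -, -, -, h1, h2, h3, -⟩ := check6_facts
    rw [Finset.sum_sub_distrib, sum_fin (fun k => ((bit pkP1 k : ℕ) : ℝ)),
      sum_fin (fun k => ((bit pkP3 k : ℕ) : ℝ)), nat_sum_cast, nat_sum_cast, h1, h3]
    norm_num
  g₁sq := by
    obtain ⟨-, -, -, h11, h22, h33, h12, h13, h23, -⟩ := check6_facts
    have e : ∀ y : Fin 416, ((bit pkP1 y : ℝ) - (bit pkP2 y : ℝ)) * ((bit pkP1 y : ℝ) - (bit pkP2 y : ℝ))
        = ((bit pkP1 y * bit pkP1 y : ℕ) : ℝ) + ((bit pkP2 y * bit pkP2 y : ℕ) : ℝ)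
          - 2 * ((bit pkP1 y * bit pkP2 y : ℕ) : ℝ) := by
      intro y; push_cast; ring
    simp only [e]
    rw [Finset.sum_sub_distrib, Finset.sum_add_distrib, ← Finset.mul_sum,
      sum_fin (fun y => ((bit pkP1 y * bit pkP1 y : ℕ) : ℝ)),
      sum_fin (fun y => ((bit pkP2 y * bit pkP2 y : ℕ) : ℝ)),
      sum_fin (fun y => ((bit pkP1 y * bit pkP2 y : ℕ) : ℝ)),
      nat_sum_cast, nat_sum_cast, nat_sum_cast, h11, h22, h12]
    norm_num
  g₂sq := by
    obtain ⟨-, -, -, h11, h22, h33, h12, h13, h23, -⟩ := check6_facts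
    have e : ∀ y : Fin 416, ((bit pkP1 y : ℝ) - (bit pkP3 y : ℝ)) * ((bit pkP1 y : ℝ) - (bit pkP3 y : ℝ))
        = ((bit pkP1 y * bit pkP1 y : ℕ) : ℝ) + ((bit pkP3 y * bit pkP3 y : ℕ) : ℝ)
          - 2 * ((bit pkP1 y * bit pkP3 y : ℕ) : ℝ) := by
      intro y; push_cast; ring
    simp only [e]
    rw [Finset.sum_sub_distrib, Finset.sum_add_distrib, ← Finset.mul_sum,
      sum_fin (fun y => ((bit pkP1 y * bit pkP1 y : ℕ) : ℝ)),
      sum_fin (fun y => ((bit pkP3 y * bit pkP3 y : ℕ) : ℝ)),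
      sum_fin (fun y => ((bit pkP1 y * bit pkP3 y : ℕ) : ℝ)),
      nat_sum_cast, nat_sum_cast, nat_sum_cast, h11, h33, h13]
    norm_num
  g₁₂ := by
    obtain ⟨-, -, -, h11, h22, h33, h12, h13, h23, -⟩ := check6_facts
    have e : ∀ y : Fin 416, ((bit pkP1 y : ℝ) - (bit pkP2 y : ℝ)) * ((bit pkP1 y : ℝ) - (bit pkP3 y : ℝ))
        = ((bit pkP1 y * bit pkP1 y : ℕ) : ℝ) + ((bit pkP2 y * bit pkP3 y : ℕ) : ℝ)
          - ((bit pkP1 y * bit pkP2 y : ℕ) : ℝ) - ((bit pkP1 y * bit pkP3 y : ℕ) : ℝ) := by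
      intro y; push_cast; ring
    simp only [e]
    rw [Finset.sum_sub_distrib, Finset.sum_sub_distrib, Finset.sum_add_distrib,
      sum_fin (fun y => ((bit pkP1 y * bit pkP1 y : ℕ) : ℝ)),
      sum_fin (fun y => ((bit pkP2 y * bit pkP3 y : ℕ) : ℝ)),
      sum_fin (fun y => ((bit pkP1 y * bit pkP2 y : ℕ) : ℝ)),
      sum_fin (fun y => ((bit pkP1 y * bit pkP3 y : ℕ) : ℝ)),
      nat_sum_cast, nat_sum_cast, nat_sum_cast, nat_sum_cast, h11, h23, h12, h13]
    norm_num
  z := ⟨zV, zV_lt⟩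
  g₁z := by
    obtain ⟨-, -, -, -, -, -, -, -, -, -, -, -, h1, h2, h3⟩ := check6_facts
    simp only [h1, h2]
    norm_num
  g₂z := by
    obtain ⟨-, -, -, -, -, -, -, -, -, -, -, -, h1, h2, h3⟩ := check6_facts
    simp only [h1, h3]
    norm_num
  U := Finset.univ.filter (fun x : Fin 416 => inU x = true)
  Uz := by
    simp [inU, Nat.beq_refl]
  Uvanish := by
    intro x hx hne
    have hx' : inU x = true := (Finset.mem_filter.mp hx).2
    have hne' : (x : ℕ) ≠ zV := fun e => hne (Fin.ext e)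
    unfold inU at hx'
    simp only [Bool.or_eq_true, Bool.and_eq_true, Nat.beq_eq] at hx'
    rcases hx' with h | ⟨h1, h2, h3⟩
    · exact absurd h hne'
    · simp [h1, h2, h3]

lemma card_U : theData.U.card = 321 := by
  have h := card_ok
  have e : theData.U = Finset.univ.filter (fun x : Fin 416 => inU x = true) := rfl
  rw [e]
  have hmap : (Finset.univ.filter (fun x : Fin 416 => inU x = true)).map Fin.valEmbedding
      = (Finset.range 416).filter (fun x => inU x = true) := by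
    ext a
    simp only [Finset.mem_map, Finset.mem_filter, Finset.mem_univ, true_and, Fin.valEmbedding_apply,
      Finset.mem_range]
    constructor
    · rintro ⟨x, hx, rfl⟩
      exact ⟨x.2, hx⟩
    · rintro ⟨h1, h2⟩
      exact ⟨⟨a, h1⟩, h2, rfl⟩
  rw [← Finset.card_map Fin.valEmbedding, hmap]
  have h2 : ((Finset.range 416).filter (fun x => inU x = true)).card
      = ((List.range 416).filter (fun x => inU x)).length := by
    have : ((Finset.range 416).filter (fun x => inU x = true)).val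
        = ((List.range 416).filter (fun x => inU x) : List ℕ) := by
      simp only [Finset.filter_val, Finset.range_val, Multiset.range, Multiset.filter_coe]
      simp
    rw [Finset.card, this, Multiset.coe_card]
  rw [h2, h]

lemma clique_U (C : Finset (Fin 416)) (_ : C ⊆ theData.U)
    (h : ∀ x ∈ C, ∀ y ∈ C, x ≠ y → theData.a x y = 1) : C.card ≤ 5 := by
  have hcl : Cl (C.map Fin.valEmbedding) := by
    constructor
    · intro x hx
      obtain ⟨u, _, rfl⟩ := Finset.mem_map.mp hx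
      exact u.2
    · intro x hx y hy hxy
      obtain ⟨u, hu, rfl⟩ := Finset.mem_map.mp hx
      obtain ⟨v, hv, rfl⟩ := Finset.mem_map.mp hy
      have hne : u ≠ v := fun e => hxy (by rw [e])
      have h1 : (aN u v : ℝ) = 1 := h u hu v hv hne
      exact_mod_cast h1
  have := clique_le hcl
  rwa [Finset.card_map] at this

theorem main : ∃ Y : Set (EuclideanSpace ℝ (Fin 63)), Y.Finite ∧ 0 < Metric.diam Y ∧
    ¬ ∃ B : Fin 64 → Set (EuclideanSpace ℝ (Fin 63)),
      (∀ i, B i ⊆ Y) ∧ (⋃ i, B i) = Y ∧ ∀ i, Metric.diam (B i) < Metric.diam Y :=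
  theData.borsuk card_U clique_U

end Vale.Agent.Lib.P052.Inst
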